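import Vale.Agent.P268.T.H748.LkwC
import Vale.Agent.P268.T.H266.LevelOf

/-!
# P268, topological half, route V: `LevTameW`, `LevIHW`, `LevOneW` from the case lemmas

`LevTameW` and `LevIHW` follow from `LevCases` alone; `LevOneW` holds.
-/

set_option linter.unusedSectionVars false

namespace Vale.Agent.P268.T.RV.K748

open Set Filter Topology

/-- **The window move**, from the case lemmas. -/
theorem levTameW_of_cases (hC : LevCases) : LevTameW Lw := by
  intro E _ _ _ T N a L B hB _ haN
  obtain ⟨lam₁, h1⟩ := hC E T N a L B hB haN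
  refine ⟨max lam₁ 0, fun lam hlam => ?_⟩
  have hl0 : 0 ≤ lam := (le_max_right _ _).trans hlam
  have hl1 : lam₁ ≤ lam := (le_max_left _ _).trans hlam
  have haT : a + 1 ≤ T := haN.trans hB.le
  exact tame_of_cases hB.tame (continuousOn_lkw haT hl0)
    (fun t _ r hr y z => lkw_smul T a lam t hr y z)
    (fun t ht y => lkw_zero_right haT hl0 ht y)
    (fun t ht y z z' => lkw_lip haT hl0 ht y z z') (fun t₀ ht₀ => (h1 lam hl1 t₀ ht₀).1)
    (fun t₀ ht₀ => (h1 lam hl1 t₀ ht₀).2)

/-- The induction hypothesis for the end of the level step, from the case lemmas. -/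
theorem levIHW_of_cases (hC : LevCases) : LevIHW Lw := by
  intro E _ _ _ T N a L B hB ha haN
  obtain ⟨lam₁, h1⟩ := levTameW_of_cases hC E T N a L B hB ha haN
  refine ⟨max lam₁ 0, fun lam hlam => ?_⟩
  have hl0 : 0 ≤ lam := (le_max_right _ _).trans hlam
  have hl1 : lam₁ ≤ lam := (le_max_left _ _).trans hlam
  have haT : a + 1 ≤ T := haN.trans hB.le
  exact ⟨Nat.le_succ a, Tame.static (h1 lam hl1) ⟨zero_le_one, le_rfl⟩,
    fun x z hz => levw_cone haT B hl0 x hz⟩

/-- **The end of the window move is the gate form.** -/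
theorem levOneW : LevOneW := by
  intro E _ _ _ T N a L B hB _ haN lam _ p
  rw [levw_one (haN.trans hB.le)]
  rfl

end Vale.Agent.P268.T.RV.K748
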