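import Vale.Agent.P268.T.H594.KinkProf
import Vale.Agent.P268.T.H266.Lev

/-!
# P268, topological half, route V: first facts on the link `lkw`

Bounds, homogeneity, joint continuity, Lipschitz bound in `z`, the end `t = 1` (gate form) and the
cone property of the end.
-/

set_option linter.unusedSectionVars false

namespace Vale.Agent.P268.T.RV.K748

open Set Filter Topology

/-! ### `Lam` -/

theorem Lam_lip_right (a : ℕ) (S V V' : ℝ) : |Lam a S V - Lam a S V'| ≤ |V - V'| := by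
  have h1 : |min V ((2 * a + 1) * Real.pi) - min V' ((2 * a + 1) * Real.pi)| ≤ |V - V'| := by
    have := abs_min_sub_min_le_max V ((2 * a + 1) * Real.pi) V' ((2 * a + 1) * Real.pi)
    simpa using this
  have h2 : |min S (min V ((2 * a + 1) * Real.pi)) - min S (min V' ((2 * a + 1) * Real.pi))| ≤
      |V - V'| := by
    have := abs_min_sub_min_le_max S (min V ((2 * a + 1) * Real.pi)) S
      (min V' ((2 * a + 1) * Real.pi))
    rw [sub_self, abs_zero, max_eq_right (abs_nonneg _)] at this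
    exact this.trans h1
  have h3 : |max (V - 2 * Real.pi) (min S (min V ((2 * a + 1) * Real.pi))) -
      max (V' - 2 * Real.pi) (min S (min V' ((2 * a + 1) * Real.pi)))| ≤ |V - V'| := by
    refine (abs_max_sub_max_le_max _ _ _ _).trans (max_le ?_ h2)
    rw [sub_sub_sub_cancel_right]
  unfold Lam
  refine (abs_min_sub_min_le_max _ _ _ _).trans (max_le h3 ?_)
  rw [sub_self, abs_zero]
  exact abs_nonneg _

theorem Lam_lip_left (a : ℕ) (S S' V : ℝ) : |Lam a S V - Lam a S' V| ≤ |S - S'| := by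
  have h2 : |min S (min V ((2 * a + 1) * Real.pi)) - min S' (min V ((2 * a + 1) * Real.pi))| ≤
      |S - S'| := by
    have := abs_min_sub_min_le_max S (min V ((2 * a + 1) * Real.pi)) S'
      (min V ((2 * a + 1) * Real.pi))
    rwa [sub_self, abs_zero, max_eq_left (abs_nonneg _)] at this
  have h3 : |max (V - 2 * Real.pi) (min S (min V ((2 * a + 1) * Real.pi))) -
      max (V - 2 * Real.pi) (min S' (min V ((2 * a + 1) * Real.pi)))| ≤ |S - S'| := by
    refine (abs_max_sub_max_le_max _ _ _ _).trans (max_le ?_ h2)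
    rw [sub_self, abs_zero]
    exact abs_nonneg _
  unfold Lam
  refine (abs_min_sub_min_le_max _ _ _ _).trans (max_le h3 ?_)
  rw [add_sub_add_right_eq_sub]

/-- Beyond the first `a + 1` turns of `y` the window phase does not depend on `y`. -/
theorem Lam_of_le {a : ℕ} {S V : ℝ} (hS : (2 * a + 1) * Real.pi ≤ S)
    (hV : V ≤ (2 * a + 3) * Real.pi) : Lam a S V = min V ((2 * a + 1) * Real.pi) := by
  have hpi := Real.pi_pos
  have ha : (0 : ℝ) ≤ a := by positivity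
  unfold Lam
  rw [min_eq_right ((min_le_right V ((2 * a + 1) * Real.pi)).trans hS),
    max_eq_right (le_min (by linarith) (by linarith)), min_eq_left]
  have h1 := min_le_right V ((2 * a + 1) * Real.pi)
  have h2 : 0 ≤ 2 * (a : ℝ) * Real.pi := by positivity
  linarith

/-- At the start of `y`. -/
theorem Lam_start {a : ℕ} {V : ℝ} (hV : Real.pi ≤ V) :
    Lam a (-Real.pi) V = min V ((2 * a + 1) * Real.pi) - 2 * Real.pi := by
  have hpi := Real.pi_pos
  have ha : (0 : ℝ) ≤ a := by positivity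
  have h2 : 0 ≤ 2 * (a : ℝ) * Real.pi := by positivity
  unfold Lam
  have e1 : min (-Real.pi) (min V ((2 * a + 1) * Real.pi)) = -Real.pi :=
    min_eq_left (le_min (by linarith) (by linarith))
  rw [e1, max_eq_left (by linarith), ← min_sub_sub_right]
  congr 1
  ring

/-- At the cut of `y` the two values of the window phase agree. -/
theorem Lam_cut_left {a : ℕ} {S V : ℝ} (hS : (2 * a + 1) * Real.pi ≤ S) (hV : Real.pi ≤ V)
    (hV' : V ≤ (2 * a + 3) * Real.pi) : eI (Lam a S V) = eI (Lam a (-Real.pi) V) := by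
  rw [Lam_of_le hS hV', Lam_start hV]
  have := eI_add_int (min V ((2 * a + 1) * Real.pi) - 2 * Real.pi) 1
  rw [← this]
  congr 1
  push_cast
  ring

/-! ### Values of the phases -/

theorem prof_nonneg_sum (T : ℕ) (θ : ℝ) : Real.pi ≤ prof T θ := by
  have hpi := Real.pi_pos
  unfold prof
  have h : 0 ≤ ∑ k ∈ Finset.range T, clamp01 (xc T θ - (2 * k + 1)) :=
    Finset.sum_nonneg fun k _ => clamp01_nonneg _
  have : 0 ≤ 2 * Real.pi * ∑ k ∈ Finset.range T, clamp01 (xc T θ - (2 * k + 1)) := by positivity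
  linarith

theorem prof_le (T : ℕ) (θ : ℝ) : prof T θ ≤ (2 * T + 1) * Real.pi := by
  have hpi := Real.pi_pos
  unfold prof
  have h : ∑ k ∈ Finset.range T, clamp01 (xc T θ - (2 * k + 1)) ≤ T := by
    refine (Finset.sum_le_sum fun k _ => clamp01_le_one _).trans ?_
    simp
  nlinarith

theorem prof_neg_pi (T : ℕ) : prof T (-Real.pi) = Real.pi := by
  have h := prof_eq_rest (T := T) (k := 0) (Nat.zero_le _) (θ := -Real.pi)
    (by rw [xc_neg_pi]; simp) (by rw [xc_neg_pi]; simp)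
  rw [h]; simp

theorem prof_pi (T : ℕ) : prof T Real.pi = (2 * T + 1) * Real.pi := by
  have h := prof_eq_rest (T := T) (k := T) le_rfl (θ := Real.pi)
    (by rw [xc_pi]; linarith) (by rw [xc_pi])
  rw [h]; ring

theorem pi_le_Vph (a : ℕ) (z : ℂ) : Real.pi ≤ Vph a z := prof_nonneg_sum _ _

theorem Vph_le (a : ℕ) (z : ℂ) : Vph a z ≤ (2 * a + 3) * Real.pi := by
  refine (prof_le _ _).trans (le_of_eq ?_)
  push_cast
  ring

theorem le_Sph {T a : ℕ} (ha : a + 1 ≤ T) {y : ℂ} (h : 2 * (a : ℝ) + 2 ≤ pos T y) :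
    (2 * a + 1) * Real.pi ≤ Sph T y := by
  have hpi := Real.pi_pos
  unfold Sph prof
  have h1 : ((a : ℝ) + 1) ≤ ∑ k ∈ Finset.range T, clamp01 (xc T (Complex.arg y) - (2 * k + 1)) := by
    have h2 : ∑ k ∈ Finset.range (a + 1), clamp01 (xc T (Complex.arg y) - (2 * k + 1)) = a + 1 := by
      rw [Finset.sum_congr rfl (g := fun _ => (1 : ℝ)) ?_]
      · simp
      · intro k hk
        have hk' : (k : ℝ) ≤ a := by exact_mod_cast Nat.lt_succ_iff.mp (Finset.mem_range.mp hk)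
        refine clamp01_eq_one ?_
        have h3 : 2 * (a : ℝ) + 2 ≤ xc T (Complex.arg y) := h
        linarith
    rw [← h2]
    exact Finset.sum_le_sum_of_subset_of_nonneg (Finset.range_mono ha)
      fun k _ _ => clamp01_nonneg _
  nlinarith

/-! ### The window function `cy` -/

theorem cy_nonneg {T a : ℕ} (ha : a + 1 ≤ T) (y : ℂ) : 0 ≤ cy T a y := by
  unfold cy
  have ha' : (a : ℝ) + 1 ≤ T := by exact_mod_cast ha
  exact sub_nonneg.mpr (clamp01_mono (by linarith))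

theorem cy_le_one (T a : ℕ) (y : ℂ) : cy T a y ≤ 1 := by
  unfold cy
  have h1 := clamp01_le_one (2 * (pos T y - (2 * a + 2) - 1 / 4))
  have h2 := clamp01_nonneg (2 * (pos T y - 2 * T - 1 / 4))
  linarith

/-- `cy = 0` on the first `a + 1` turns. -/
theorem cy_eq_zero_of_le {T a : ℕ} (ha : a + 1 ≤ T) {y : ℂ}
    (h : pos T y ≤ 2 * a + 2 + 1 / 4) : cy T a y = 0 := by
  unfold cy
  have ha' : (a : ℝ) + 1 ≤ T := by exact_mod_cast ha
  rw [clamp01_of_le_zero (by linarith), clamp01_of_le_zero (by linarith), sub_zero]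

/-- `cy = 0` near the negative axis. -/
theorem cy_eq_zero_of_ge {T a : ℕ} (ha : a + 1 ≤ T) {y : ℂ}
    (h : 2 * (T : ℝ) + 3 / 4 ≤ pos T y) : cy T a y = 0 := by
  unfold cy
  have ha' : (a : ℝ) + 1 ≤ T := by exact_mod_cast ha
  rw [clamp01_eq_one (by linarith), clamp01_eq_one (by linarith), sub_self]

/-- `cy = 1` on the other turns. -/
theorem cy_eq_one {T a : ℕ} {y : ℂ} (h : 2 * (a : ℝ) + 2 + 3 / 4 ≤ pos T y)
    (h' : pos T y ≤ 2 * T + 1 / 4) : cy T a y = 1 := by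
  unfold cy
  rw [clamp01_eq_one (by linarith), clamp01_of_le_zero (by linarith), sub_zero]

theorem le_pos_of_cy {T a : ℕ} (ha : a + 1 ≤ T) {y : ℂ} (h : cy T a y ≠ 0) :
    2 * (a : ℝ) + 2 ≤ pos T y := by
  by_contra hcon
  exact h (cy_eq_zero_of_le ha (by linarith [not_le.mp hcon]))

/-! ### Arguments -/

theorem arg_smul_pos {r : ℝ} (hr : 0 < r) (y : ℂ) : Complex.arg (r • y) = Complex.arg y := by
  rw [Complex.real_smul]
  exact Complex.arg_real_mul y hr

theorem pos_smul {r : ℝ} (hr : 0 < r) (T : ℕ) (y : ℂ) : pos T (r • y) = pos T y := by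
  unfold pos; rw [arg_smul_pos hr]

theorem Vph_smul {r : ℝ} (hr : 0 < r) (a : ℕ) (y : ℂ) : Vph a (r • y) = Vph a y := by
  unfold Vph; rw [arg_smul_pos hr]

theorem Sph_smul {r : ℝ} (hr : 0 < r) (T : ℕ) (y : ℂ) : Sph T (r • y) = Sph T y := by
  unfold Sph; rw [arg_smul_pos hr]

theorem cy_smul {r : ℝ} (hr : 0 < r) (T a : ℕ) (y : ℂ) : cy T a (r • y) = cy T a y := by
  unfold cy; rw [pos_smul hr]

/-! ### Bounds for `bw` and `lkw` -/

theorem win_nonneg {T a : ℕ} (ha : a + 1 ≤ T) {t : ℝ} (ht : t ∈ Icc (0 : ℝ) 1) (y : ℂ) :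
    0 ≤ (1 - t) + t * cy T a y := by
  have h1 := mul_nonneg ht.1 (cy_nonneg ha y)
  linarith [ht.2]

theorem win_le_one {T a : ℕ} {t : ℝ} (ht : t ∈ Icc (0 : ℝ) 1) (y : ℂ) :
    (1 - t) + t * cy T a y ≤ 1 := by
  have h1 := mul_le_mul_of_nonneg_left (cy_le_one T a y) ht.1
  linarith

theorem bw_nonneg {T a : ℕ} (ha : a + 1 ≤ T) {lam t : ℝ} (hl : 0 ≤ lam)
    (ht : t ∈ Icc (0 : ℝ) 1) (y z : ℂ) : 0 ≤ bw T a lam t y z :=
  le_min (mul_nonneg hl (mul_nonneg (win_nonneg ha ht y) (norm_nonneg _))) (norm_nonneg _)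

theorem bw_le_norm (T a : ℕ) (lam t : ℝ) (y z : ℂ) : bw T a lam t y z ≤ ‖z‖ := min_le_right _ _

theorem bw_le {T a : ℕ} {lam t : ℝ} (hl : 0 ≤ lam) (ht : t ∈ Icc (0 : ℝ) 1) (y z : ℂ) :
    bw T a lam t y z ≤ lam * ‖y‖ :=
  (min_le_left _ _).trans (mul_le_mul_of_nonneg_left
    (mul_le_of_le_one_left (norm_nonneg _) (win_le_one ht y)) hl)

theorem norm_lkw_le {T a : ℕ} (ha : a + 1 ≤ T) {lam t : ℝ} (hl : 0 ≤ lam)
    (ht : t ∈ Icc (0 : ℝ) 1) (y z : ℂ) : ‖lkw T a lam t y z‖ ≤ ‖z‖ := by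
  have h0 := bw_nonneg ha hl ht y z
  have h1 := bw_le_norm T a lam t y z
  unfold lkw
  refine (norm_add_le _ _).trans ?_
  rw [norm_mul, norm_mul, norm_eI, norm_eI, mul_one, mul_one, Complex.norm_real,
    Complex.norm_real, Real.norm_eq_abs, Real.norm_eq_abs, abs_of_nonneg h0,
    abs_of_nonneg (sub_nonneg.mpr h1)]
  linarith

theorem lkw_zero_right {T a : ℕ} (ha : a + 1 ≤ T) {lam t : ℝ} (hl : 0 ≤ lam)
    (ht : t ∈ Icc (0 : ℝ) 1) (y : ℂ) : lkw T a lam t y 0 = 0 := by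
  have := norm_lkw_le ha hl ht y 0
  rw [norm_zero] at this
  exact norm_le_zero_iff.mp this

theorem bw_zero_left (T a : ℕ) (lam t : ℝ) (z : ℂ) : bw T a lam t 0 z = 0 := by
  unfold bw
  rw [norm_zero, mul_zero, mul_zero, min_eq_left (norm_nonneg _)]

theorem lkw_zero_left (T a : ℕ) (lam t : ℝ) (z : ℂ) :
    lkw T a lam t 0 z = ((‖z‖ : ℝ) : ℂ) * eI (Vph a z) := by
  unfold lkw
  rw [bw_zero_left]
  simp

/-- Homogeneity. -/
theorem lkw_smul (T a : ℕ) (lam t : ℝ) {r : ℝ} (hr : 0 ≤ r) (y z : ℂ) :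
    lkw T a lam t (r • y) (r • z) = r • lkw T a lam t y z := by
  rcases hr.eq_or_lt with rfl | hr
  · rw [zero_smul, zero_smul, zero_smul, lkw_zero_left, norm_zero, Complex.ofReal_zero, zero_mul]
  · have hb : bw T a lam t (r • y) (r • z) = r * bw T a lam t y z := by
      unfold bw
      rw [cy_smul hr, norm_smul, norm_smul, Real.norm_of_nonneg hr.le, mul_min_of_nonneg _ _ hr.le]
      congr 1
      ring
    unfold lkw
    rw [hb, Vph_smul hr, Sph_smul hr, norm_smul, Real.norm_of_nonneg hr.le, Complex.real_smul]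
    push_cast
    ring

/-! ### Lipschitz bounds -/

/-- Directions. -/
theorem norm_mul_dir_sub {z z' : ℂ} (hz : z ≠ 0) (hz' : z' ≠ 0) :
    ‖z'‖ * ‖eI (Complex.arg z) - eI (Complex.arg z')‖ ≤ 2 * ‖z - z'‖ := by
  have h1 : |‖z‖ - ‖z'‖| ≤ ‖z - z'‖ := abs_norm_sub_norm_le z z'
  have e2 : ((‖z'‖ : ℝ) : ℂ) * (eI (Complex.arg z) - eI (Complex.arg z')) =
      ((‖z'‖ - ‖z‖ : ℝ) : ℂ) * eI (Complex.arg z) + (z - z') := by
    have e3 := arg_polar hz
    have e4 := arg_polar hz'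
    calc ((‖z'‖ : ℝ) : ℂ) * (eI (Complex.arg z) - eI (Complex.arg z'))
        = ((‖z'‖ - ‖z‖ : ℝ) : ℂ) * eI (Complex.arg z) +
          (((‖z‖ : ℝ) : ℂ) * eI (Complex.arg z) - ((‖z'‖ : ℝ) : ℂ) * eI (Complex.arg z')) := by
          push_cast; ring
      _ = _ := by rw [e3, e4]
  have e5 : ‖z'‖ * ‖eI (Complex.arg z) - eI (Complex.arg z')‖ =
      ‖((‖z'‖ : ℝ) : ℂ) * (eI (Complex.arg z) - eI (Complex.arg z'))‖ := by
    rw [norm_mul, Complex.norm_real, norm_norm]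
  rw [e5, e2]
  refine (norm_add_le _ _).trans ?_
  rw [norm_mul, Complex.norm_real, norm_eI, mul_one, Real.norm_eq_abs, abs_sub_comm]
  linarith

/-- The circle Lipschitz constant of the core phase. -/
noncomputable def Kv (a : ℕ) : ℝ := ((a : ℝ) + 1) * (2 * (a + 1) + 1) * (Real.pi / 2)

theorem Kv_nonneg (a : ℕ) : 0 ≤ Kv a := by
  have := Real.pi_pos
  unfold Kv; positivity

theorem eI_Vph_lip (a : ℕ) (z z' : ℂ) : ‖eI (Vph a z) - eI (Vph a z')‖ ≤
    Kv a * ‖eI (Complex.arg z) - eI (Complex.arg z')‖ := by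
  have h := circle_lip (p := prof (a + 1)) (K := ((a + 1 : ℕ) : ℝ) * (2 * ((a + 1 : ℕ) : ℝ) + 1))
    (fun θ _ θ' _ => prof_lip (a + 1) θ θ') ?_ (arg_mem_Icc z) (arg_mem_Icc z')
  · unfold Kv
    push_cast at h ⊢
    exact h
  · rw [prof_pi, prof_neg_pi]
    have := eI_add_int Real.pi (a + 1 : ℕ)
    rw [← this]
    congr 1
    push_cast
    ring

theorem eI_Lam_lip_z (a : ℕ) {S : ℝ} (hS : -Real.pi ≤ S) (z z' : ℂ) :
    ‖eI (Lam a S (Vph a z)) - eI (Lam a S (Vph a z'))‖ ≤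
      Kv a * ‖eI (Complex.arg z) - eI (Complex.arg z')‖ := by
  have h := circle_lip (p := fun θ => Lam a S (prof (a + 1) θ))
    (K := ((a + 1 : ℕ) : ℝ) * (2 * ((a + 1 : ℕ) : ℝ) + 1))
    (fun θ _ θ' _ => (Lam_lip_right a S _ _).trans (prof_lip (a + 1) θ θ')) ?_
    (arg_mem_Icc z) (arg_mem_Icc z')
  · unfold Kv
    push_cast at h ⊢
    exact h
  · show eI (Lam a S (prof (a + 1) Real.pi)) = eI (Lam a S (prof (a + 1) (-Real.pi)))
    rw [prof_pi, prof_neg_pi]
    have e : (2 * ((a + 1 : ℕ) : ℝ) + 1) * Real.pi = (2 * a + 3) * Real.pi := by push_cast; ring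
    rw [e]
    exact Lam_cut hS

theorem eI_Lam_lip_y {T a : ℕ} (ha : a + 1 ≤ T) {V : ℝ} (hV : Real.pi ≤ V)
    (hV' : V ≤ (2 * a + 3) * Real.pi) (y y' : ℂ) :
    ‖eI (Lam a (Sph T y) V) - eI (Lam a (Sph T y') V)‖ ≤
      (T * (2 * T + 1) * (Real.pi / 2)) * ‖eI (Complex.arg y) - eI (Complex.arg y')‖ := by
  refine circle_lip (p := fun θ => Lam a (prof T θ - 2 * Real.pi) V)
    (fun θ _ θ' _ => (Lam_lip_left a _ _ V).trans ?_) ?_ (arg_mem_Icc y) (arg_mem_Icc y')
  · rw [sub_sub_sub_cancel_right]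
    exact prof_lip T θ θ'
  · show eI (Lam a (prof T Real.pi - 2 * Real.pi) V) =
      eI (Lam a (prof T (-Real.pi) - 2 * Real.pi) V)
    rw [prof_pi, prof_neg_pi]
    have e : Real.pi - 2 * Real.pi = -Real.pi := by ring
    rw [e]
    refine Lam_cut_left ?_ hV hV'
    have hpi := Real.pi_pos
    have ha' : (a : ℝ) + 1 ≤ T := by exact_mod_cast ha
    nlinarith

/-- The Lipschitz constant of `lkw` in `z`. -/
noncomputable def Lw (a : ℕ) : ℝ := 2 * (1 + 2 * Kv a)

theorem Lw_nonneg (a : ℕ) : 0 ≤ Lw a := by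
  have := Kv_nonneg a
  unfold Lw; positivity

theorem one_le_Lw (a : ℕ) : 1 ≤ Lw a := by
  have := Kv_nonneg a
  unfold Lw; linarith

/-- **Lipschitz bound in `z`**, independent of `T`, `lam`, `t` and `y`. -/
theorem lkw_lip {T a : ℕ} (ha : a + 1 ≤ T) {lam t : ℝ} (hl : 0 ≤ lam)
    (ht : t ∈ Icc (0 : ℝ) 1) (y z z' : ℂ) :
    ‖lkw T a lam t y z - lkw T a lam t y z'‖ ≤ Lw a * ‖z - z'‖ := by
  have hL := one_le_Lw a
  rcases eq_or_ne z 0 with rfl | hz
  · rw [lkw_zero_right ha hl ht, zero_sub, norm_neg, zero_sub, norm_neg]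
    exact (norm_lkw_le ha hl ht y z').trans (le_mul_of_one_le_left (norm_nonneg _) hL)
  rcases eq_or_ne z' 0 with rfl | hz'
  · rw [lkw_zero_right ha hl ht, sub_zero, sub_zero]
    exact (norm_lkw_le ha hl ht y z).trans (le_mul_of_one_le_left (norm_nonneg _) hL)
  have hd := norm_mul_dir_sub hz hz'
  have hn : |‖z‖ - ‖z'‖| ≤ ‖z - z'‖ := abs_norm_sub_norm_le z z'
  have hb0 := bw_nonneg ha hl ht y z'
  have hb1 := bw_le_norm T a lam t y z'
  have hb : |bw T a lam t y z - bw T a lam t y z'| ≤ ‖z - z'‖ := by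
    unfold bw
    refine (abs_min_sub_min_le_max _ _ _ _).trans ?_
    rw [sub_self, abs_zero, max_eq_right (abs_nonneg _)]
    exact hn
  have hc : |(‖z‖ - bw T a lam t y z) - (‖z'‖ - bw T a lam t y z')| ≤ ‖z - z'‖ := by
    have e : ∀ x : ℂ, ‖x‖ - bw T a lam t y x =
        max (‖x‖ - lam * (((1 - t) + t * cy T a y) * ‖y‖)) 0 := by
      intro x
      unfold bw
      rw [← sub_self ‖x‖, max_sub_sub_left]
    rw [e, e]
    refine (abs_max_sub_max_le_max _ _ _ _).trans ?_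
    rw [sub_self, abs_zero, max_eq_left (abs_nonneg _), sub_sub_sub_cancel_right]
    exact hn
  have hu := eI_Vph_lip a z z'
  have hw := eI_Lam_lip_z a (neg_pi_le_Sph T y) z z'
  have hK := Kv_nonneg a
  have e : lkw T a lam t y z - lkw T a lam t y z' =
      ((((‖z‖ - bw T a lam t y z) - (‖z'‖ - bw T a lam t y z') : ℝ) : ℂ) * eI (Vph a z) +
        ((‖z'‖ - bw T a lam t y z' : ℝ) : ℂ) * (eI (Vph a z) - eI (Vph a z'))) +
      (((bw T a lam t y z - bw T a lam t y z' : ℝ) : ℂ) * eI (Lam a (Sph T y) (Vph a z)) +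
        ((bw T a lam t y z' : ℝ) : ℂ) *
          (eI (Lam a (Sph T y) (Vph a z)) - eI (Lam a (Sph T y) (Vph a z')))) := by
    unfold lkw
    push_cast
    ring
  rw [e]
  refine (norm_add_le _ _).trans ?_
  have h1 : ‖(((‖z‖ - bw T a lam t y z) - (‖z'‖ - bw T a lam t y z') : ℝ) : ℂ) *
        eI (Vph a z) +
        ((‖z'‖ - bw T a lam t y z' : ℝ) : ℂ) * (eI (Vph a z) - eI (Vph a z'))‖ ≤
      (1 + 2 * Kv a) * ‖z - z'‖ := by
    refine (norm_add_le _ _).trans ?_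
    rw [norm_mul, norm_mul, norm_eI, mul_one, Complex.norm_real, Complex.norm_real,
      Real.norm_eq_abs, Real.norm_eq_abs, abs_of_nonneg (sub_nonneg.mpr hb1)]
    have h2 : (‖z'‖ - bw T a lam t y z') * ‖eI (Vph a z) - eI (Vph a z')‖ ≤
        Kv a * (2 * ‖z - z'‖) := by
      calc (‖z'‖ - bw T a lam t y z') * ‖eI (Vph a z) - eI (Vph a z')‖
          ≤ ‖z'‖ * (Kv a * ‖eI (Complex.arg z) - eI (Complex.arg z')‖) :=
            mul_le_mul (by linarith) hu (norm_nonneg _) (norm_nonneg _)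
        _ = Kv a * (‖z'‖ * ‖eI (Complex.arg z) - eI (Complex.arg z')‖) := by ring
        _ ≤ _ := mul_le_mul_of_nonneg_left hd hK
    linarith
  have h3 : ‖((bw T a lam t y z - bw T a lam t y z' : ℝ) : ℂ) *
        eI (Lam a (Sph T y) (Vph a z)) +
        ((bw T a lam t y z' : ℝ) : ℂ) *
          (eI (Lam a (Sph T y) (Vph a z)) - eI (Lam a (Sph T y) (Vph a z')))‖ ≤
      (1 + 2 * Kv a) * ‖z - z'‖ := by
    refine (norm_add_le _ _).trans ?_
    rw [norm_mul, norm_mul, norm_eI, mul_one, Complex.norm_real, Complex.norm_real,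
      Real.norm_eq_abs, Real.norm_eq_abs, abs_of_nonneg hb0]
    have h2 : bw T a lam t y z' *
        ‖eI (Lam a (Sph T y) (Vph a z)) - eI (Lam a (Sph T y) (Vph a z'))‖ ≤
        Kv a * (2 * ‖z - z'‖) := by
      calc bw T a lam t y z' *
          ‖eI (Lam a (Sph T y) (Vph a z)) - eI (Lam a (Sph T y) (Vph a z'))‖
          ≤ ‖z'‖ * (Kv a * ‖eI (Complex.arg z) - eI (Complex.arg z')‖) :=
            mul_le_mul hb1 hw (norm_nonneg _) (norm_nonneg _)
        _ = Kv a * (‖z'‖ * ‖eI (Complex.arg z) - eI (Complex.arg z')‖) := by ring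
        _ ≤ _ := mul_le_mul_of_nonneg_left hd hK
    linarith
  calc _ ≤ (1 + 2 * Kv a) * ‖z - z'‖ + (1 + 2 * Kv a) * ‖z - z'‖ := add_le_add h1 h3
    _ = Lw a * ‖z - z'‖ := by unfold Lw; ring

end Vale.Agent.P268.T.RV.K748
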