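import Vale.Agent.P268.T.H748.Lkw

/-!
# P268, topological half, route V: continuity of the link `lkw`, the end `t = 1`
-/

set_option linter.unusedSectionVars false

namespace Vale.Agent.P268.T.RV.K748

open Set Filter Topology

/-! ### Continuity of directions -/

theorem tendsto_dir {z₀ : ℂ} (hz₀ : z₀ ≠ 0) :
    Tendsto (fun z => ‖eI (Complex.arg z) - eI (Complex.arg z₀)‖) (𝓝 z₀) (𝓝 0) := by
  have h1 : Tendsto (fun z : ℂ => 2 * ‖z - z₀‖ / ‖z₀‖) (𝓝 z₀) (𝓝 0) := by
    have : Tendsto (fun z : ℂ => 2 * ‖z - z₀‖ / ‖z₀‖) (𝓝 z₀) (𝓝 (2 * ‖z₀ - z₀‖ / ‖z₀‖)) := by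
      refine Tendsto.div_const (Tendsto.const_mul _ (Continuous.tendsto ?_ z₀)) _
      fun_prop
    simpa using this
  refine tendsto_of_tendsto_of_tendsto_of_le_of_le' tendsto_const_nhds h1
    (Eventually.of_forall fun z => norm_nonneg _) ?_
  filter_upwards [eventually_ne_nhds hz₀] with z hz
  rw [le_div_iff₀ (norm_pos_iff.mpr hz₀), mul_comm]
  exact norm_mul_dir_sub hz hz₀

/-- The core phase is continuous off `0`. -/
theorem continuousAt_eI_Vph (a : ℕ) {z₀ : ℂ} (hz₀ : z₀ ≠ 0) :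
    ContinuousAt (fun z => eI (Vph a z)) z₀ := by
  rw [ContinuousAt, tendsto_iff_norm_sub_tendsto_zero]
  have h := (tendsto_dir hz₀).const_mul (Kv a)
  rw [mul_zero] at h
  exact tendsto_of_tendsto_of_tendsto_of_le_of_le tendsto_const_nhds h
    (fun z => norm_nonneg _) (fun z => eI_Vph_lip a z z₀)

/-- The window phase is continuous off the axes. -/
theorem continuousAt_eI_Lam {T a : ℕ} (ha : a + 1 ≤ T) {y₀ z₀ : ℂ} (hy₀ : y₀ ≠ 0)
    (hz₀ : z₀ ≠ 0) :
    ContinuousAt (fun q : ℂ × ℂ => eI (Lam a (Sph T q.1) (Vph a q.2))) (y₀, z₀) := by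
  rw [ContinuousAt, tendsto_iff_norm_sub_tendsto_zero]
  have h1 : Tendsto (fun q : ℂ × ℂ => Kv a * ‖eI (Complex.arg q.2) - eI (Complex.arg z₀)‖)
      (𝓝 (y₀, z₀)) (𝓝 0) := by
    have h := ((tendsto_dir hz₀).comp (continuous_snd.tendsto (y₀, z₀))).const_mul (Kv a)
    rwa [mul_zero] at h
  have h2 : Tendsto (fun q : ℂ × ℂ => (T * (2 * T + 1) * (Real.pi / 2)) *
      ‖eI (Complex.arg q.1) - eI (Complex.arg y₀)‖) (𝓝 (y₀, z₀)) (𝓝 0) := by
    have h := ((tendsto_dir hy₀).comp (continuous_fst.tendsto (y₀, z₀))).const_mul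
      (T * (2 * T + 1) * (Real.pi / 2) : ℝ)
    rwa [mul_zero] at h
  have h3 := h1.add h2
  rw [add_zero] at h3
  refine tendsto_of_tendsto_of_tendsto_of_le_of_le tendsto_const_nhds h3
    (fun q => norm_nonneg _) (fun q => ?_)
  have e : eI (Lam a (Sph T q.1) (Vph a q.2)) - eI (Lam a (Sph T y₀) (Vph a z₀)) =
      (eI (Lam a (Sph T q.1) (Vph a q.2)) - eI (Lam a (Sph T q.1) (Vph a z₀))) +
      (eI (Lam a (Sph T q.1) (Vph a z₀)) - eI (Lam a (Sph T y₀) (Vph a z₀))) := by ring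
  show ‖eI (Lam a (Sph T q.1) (Vph a q.2)) - eI (Lam a (Sph T y₀) (Vph a z₀))‖ ≤ _
  rw [e]
  exact (norm_add_le _ _).trans (add_le_add (eI_Lam_lip_z a (neg_pi_le_Sph T q.1) _ _)
    (eI_Lam_lip_y ha (pi_le_Vph a z₀) (Vph_le a z₀) _ _))

theorem pos_mem (T : ℕ) (y : ℂ) : 0 ≤ pos T y ∧ pos T y ≤ 2 * T + 1 := by
  obtain ⟨h1, h2⟩ := arg_mem_Icc y
  constructor
  · have := xc_mono (T := T) h1
    rwa [xc_neg_pi] at this
  · have := xc_mono (T := T) h2
    rwa [xc_pi] at this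

/-- Near the negative axis the position is in rest `0` or in rest `T`. -/
theorem eventually_pos_cut {T : ℕ} {y₀ : ℂ} (hy₀ : y₀ ≠ 0) (h : Complex.arg y₀ = Real.pi) :
    ∀ᶠ y in 𝓝 y₀, pos T y < 1 / 4 ∨ 2 * T + 3 / 4 < pos T y := by
  have hpi := Real.pi_pos
  set δ : ℝ := 2 * Real.pi / (4 * (2 * T + 1)) with hδ
  have hδ0 : 0 < δ := by positivity
  -- if `|arg|` is close to `π`
  have key : ∀ᶠ y in 𝓝 y₀, Real.pi - |Complex.arg y| < δ := by
    have h1 : ContinuousAt (fun y => |Complex.arg y|) y₀ := by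
      have e : ∀ y : ℂ, y ≠ 0 → |Complex.arg y| = Real.arccos (y.re / ‖y‖) := by
        intro y hy
        rcases le_or_gt 0 y.im with h2 | h2
        · rw [Complex.arg_of_im_nonneg_of_ne_zero h2 hy, abs_of_nonneg (Real.arccos_nonneg _)]
        · rw [Complex.arg_of_im_neg h2, abs_neg, abs_of_nonneg (Real.arccos_nonneg _)]
      have h2 : ContinuousAt (fun y : ℂ => Real.arccos (y.re / ‖y‖)) y₀ :=
        Real.continuous_arccos.continuousAt.comp
          (Complex.continuous_re.continuousAt.div continuous_norm.continuousAt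
            (norm_ne_zero_iff.mpr hy₀))
      refine h2.congr ?_
      filter_upwards [eventually_ne_nhds hy₀] with y hy
      exact (e y hy).symm
    have h2 : Tendsto (fun y => Real.pi - |Complex.arg y|) (𝓝 y₀) (𝓝 0) := by
      have := h1.tendsto.const_sub Real.pi
      rw [h, abs_of_pos hpi, sub_self] at this
      exact this
    exact h2.eventually (gt_mem_nhds hδ0)
  filter_upwards [key] with y hy
  rcases le_total 0 (Complex.arg y) with h0 | h0
  · rw [abs_of_nonneg h0] at hy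
    right
    have e := xc_sub T Real.pi (Complex.arg y)
    rw [xc_pi] at e
    have h1 : (2 * (T : ℝ) + 1) / (2 * Real.pi) * (Real.pi - Complex.arg y) <
        (2 * (T : ℝ) + 1) / (2 * Real.pi) * δ := by
      apply mul_lt_mul_of_pos_left hy
      positivity
    have h2 : (2 * (T : ℝ) + 1) / (2 * Real.pi) * δ = 1 / 4 := by
      rw [hδ]; field_simp
    rw [h2] at h1
    show 2 * (T : ℝ) + 3 / 4 < xc T (Complex.arg y)
    linarith
  · rw [abs_of_nonpos h0] at hy
    left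
    have e := xc_sub T (Complex.arg y) (-Real.pi)
    rw [xc_neg_pi] at e
    have h1 : (2 * (T : ℝ) + 1) / (2 * Real.pi) * (Real.pi - -Complex.arg y) <
        (2 * (T : ℝ) + 1) / (2 * Real.pi) * δ := by
      apply mul_lt_mul_of_pos_left hy
      positivity
    have h2 : (2 * (T : ℝ) + 1) / (2 * Real.pi) * δ = 1 / 4 := by
      rw [hδ]; field_simp
    rw [h2] at h1
    show xc T (Complex.arg y) < 1 / 4
    have h3 : (2 * (T : ℝ) + 1) / (2 * Real.pi) * (Complex.arg y - -Real.pi) =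
        (2 * (T : ℝ) + 1) / (2 * Real.pi) * (Real.pi - -Complex.arg y) := by ring
    rw [h3] at e
    linarith

theorem continuousAt_pos (T : ℕ) {y₀ : ℂ} (hy₀ : y₀ ≠ 0) (h : Complex.arg y₀ ≠ Real.pi) :
    ContinuousAt (pos T) y₀ := by
  unfold pos xc
  refine ContinuousAt.div_const (ContinuousAt.mul_const
    (ContinuousAt.add_const (Complex.continuousAt_arg ?_) _) _) _
  rw [Complex.mem_slitPlane_iff_arg]
  exact ⟨h, hy₀⟩

theorem continuous_clamp01 : Continuous clamp01 := by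
  unfold clamp01
  fun_prop

/-- The window function is continuous off `0`. -/
theorem continuousAt_cy {T a : ℕ} (ha : a + 1 ≤ T) {y₀ : ℂ} (hy₀ : y₀ ≠ 0) :
    ContinuousAt (cy T a) y₀ := by
  by_cases h : Complex.arg y₀ = Real.pi
  · have h0 : cy T a y₀ = 0 := by
      refine cy_eq_zero_of_ge ha ?_
      show 2 * (T : ℝ) + 3 / 4 ≤ xc T (Complex.arg y₀)
      rw [h, xc_pi]
      linarith
    refine ContinuousAt.congr (f := fun _ => (0 : ℝ)) continuousAt_const ?_
    filter_upwards [eventually_pos_cut (T := T) hy₀ h] with y hy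
    rcases hy with hy | hy
    · rw [cy_eq_zero_of_le ha]
      have : (0 : ℝ) ≤ a := by positivity
      linarith
    · rw [cy_eq_zero_of_ge ha hy.le]
  · have h1 := continuousAt_pos T hy₀ h
    unfold cy
    exact (continuous_clamp01.continuousAt.comp
        (((h1.sub continuousAt_const).sub continuousAt_const).const_mul 2)).sub
      (continuous_clamp01.continuousAt.comp
        (((h1.sub continuousAt_const).sub continuousAt_const).const_mul 2))

/-- `cy(y) |y|` is continuous. -/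
theorem continuous_cy_norm {T a : ℕ} (ha : a + 1 ≤ T) :
    Continuous fun y : ℂ => cy T a y * ‖y‖ := by
  rw [continuous_iff_continuousAt]
  intro y₀
  by_cases hy : y₀ = 0
  · subst hy
    rw [ContinuousAt, norm_zero, mul_zero]
    have h1 : Tendsto (fun y : ℂ => ‖y‖) (𝓝 0) (𝓝 0) := by
      have := (continuous_norm (E := ℂ)).tendsto 0
      rwa [norm_zero] at this
    refine tendsto_of_tendsto_of_tendsto_of_le_of_le tendsto_const_nhds h1
      (fun y => mul_nonneg (cy_nonneg ha y) (norm_nonneg _))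
      (fun y => mul_le_of_le_one_left (norm_nonneg _) (cy_le_one T a y))
  · exact (continuousAt_cy ha hy).mul continuous_norm.continuousAt

theorem continuous_bw {T a : ℕ} (ha : a + 1 ≤ T) (lam : ℝ) :
    Continuous fun p : ℝ × (ℂ × ℂ) => bw T a lam p.1 p.2.1 p.2.2 := by
  have h1 : Continuous fun p : ℝ × (ℂ × ℂ) => cy T a p.2.1 * ‖p.2.1‖ :=
    (continuous_cy_norm ha).comp (continuous_fst.comp continuous_snd)
  have e : (fun p : ℝ × (ℂ × ℂ) => bw T a lam p.1 p.2.1 p.2.2) =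
      fun p : ℝ × (ℂ × ℂ) => min (lam * ((1 - p.1) * ‖p.2.1‖ + p.1 * (cy T a p.2.1 * ‖p.2.1‖)))
        ‖p.2.2‖ := by
    funext p
    unfold bw
    congr 2
    ring
  rw [e]
  refine Continuous.min (continuous_const.mul ?_) (by fun_prop)
  exact ((continuous_const.sub continuous_fst).mul
    (continuous_fst.comp continuous_snd).norm).add (continuous_fst.mul h1)

/-- `|z| e^{iV(z)}` is continuous. -/
theorem continuous_norm_eI_Vph (a : ℕ) : Continuous fun z : ℂ => ((‖z‖ : ℝ) : ℂ) * eI (Vph a z) := by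
  rw [continuous_iff_continuousAt]
  intro z₀
  by_cases hz : z₀ = 0
  · subst hz
    rw [ContinuousAt, norm_zero, Complex.ofReal_zero, zero_mul, tendsto_zero_iff_norm_tendsto_zero]
    have h1 : Tendsto (fun y : ℂ => ‖y‖) (𝓝 0) (𝓝 0) := by
      have := (continuous_norm (E := ℂ)).tendsto 0
      rwa [norm_zero] at this
    refine h1.congr fun z => ?_
    rw [norm_mul, norm_eI, mul_one, Complex.norm_real, norm_norm]
  · exact (Complex.continuous_ofReal.comp continuous_norm).continuousAt.mul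
      (continuousAt_eI_Vph a hz)

/-- **Joint continuity of the link.** -/
theorem continuousOn_lkw {T a : ℕ} (ha : a + 1 ≤ T) {lam : ℝ} (hl : 0 ≤ lam) :
    ContinuousOn (fun p : ℝ × (ℂ × ℂ) => lkw T a lam p.1 p.2.1 p.2.2)
      (Icc (0 : ℝ) 1 ×ˢ (univ : Set (ℂ × ℂ))) := by
  have e : (fun p : ℝ × (ℂ × ℂ) => lkw T a lam p.1 p.2.1 p.2.2) =
      fun p : ℝ × (ℂ × ℂ) => ((‖p.2.2‖ : ℝ) : ℂ) * eI (Vph a p.2.2) +
        ((bw T a lam p.1 p.2.1 p.2.2 : ℝ) : ℂ) *
          (eI (Lam a (Sph T p.2.1) (Vph a p.2.2)) - eI (Vph a p.2.2)) := by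
    funext p
    unfold lkw
    push_cast
    ring
  rw [e]
  refine ((continuous_norm_eI_Vph a).comp
    (continuous_snd.comp continuous_snd)).continuousOn.add ?_
  rintro ⟨t₀, y₀, z₀⟩ ⟨ht₀, -⟩
  have hb := (continuous_bw (T := T) (a := a) ha lam).tendsto (t₀, y₀, z₀)
  by_cases h : y₀ = 0 ∨ z₀ = 0
  · have hb0 : bw T a lam t₀ y₀ z₀ = 0 := by
      rcases h with h | h
      · rw [h, bw_zero_left]
      · refine le_antisymm ?_ (bw_nonneg ha hl ht₀ y₀ z₀)
        have := bw_le_norm T a lam t₀ y₀ z₀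
        rwa [h, norm_zero, ← h] at this
    rw [ContinuousWithinAt]
    show Tendsto _ _ (𝓝 (((bw T a lam t₀ y₀ z₀ : ℝ) : ℂ) *
          (eI (Lam a (Sph T y₀) (Vph a z₀)) - eI (Vph a z₀))))
    rw [hb0, Complex.ofReal_zero, zero_mul, tendsto_zero_iff_norm_tendsto_zero]
    have h1 : Tendsto (fun p : ℝ × (ℂ × ℂ) => 2 * |bw T a lam p.1 p.2.1 p.2.2|)
        (𝓝[Icc (0 : ℝ) 1 ×ˢ (univ : Set (ℂ × ℂ))] (t₀, y₀, z₀)) (𝓝 0) := by
      have h3 : Tendsto (fun p : ℝ × (ℂ × ℂ) => bw T a lam p.1 p.2.1 p.2.2)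
          (𝓝[Icc (0 : ℝ) 1 ×ˢ (univ : Set (ℂ × ℂ))] (t₀, y₀, z₀)) (𝓝 (bw T a lam t₀ y₀ z₀)) :=
        hb.mono_left nhdsWithin_le_nhds
      have h2 := h3.abs.const_mul 2
      simpa [hb0] using h2
    refine tendsto_of_tendsto_of_tendsto_of_le_of_le tendsto_const_nhds h1
      (fun p => norm_nonneg _) (fun p => ?_)
    show ‖((bw T a lam p.1 p.2.1 p.2.2 : ℝ) : ℂ) *
          (eI (Lam a (Sph T p.2.1) (Vph a p.2.2)) - eI (Vph a p.2.2))‖ ≤ _
    rw [norm_mul, Complex.norm_real, Real.norm_eq_abs, mul_comm]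
    refine mul_le_mul_of_nonneg_right ?_ (abs_nonneg _)
    refine (norm_sub_le _ _).trans ?_
    rw [norm_eI, norm_eI]; norm_num
  · push Not at h
    refine ContinuousAt.continuousWithinAt ?_
    have h1 : ContinuousAt (fun p : ℝ × (ℂ × ℂ) => eI (Lam a (Sph T p.2.1) (Vph a p.2.2)))
        (t₀, y₀, z₀) :=
      ContinuousAt.comp (f := fun p : ℝ × (ℂ × ℂ) => p.2)
        (g := fun q : ℂ × ℂ => eI (Lam a (Sph T q.1) (Vph a q.2)))
        (continuousAt_eI_Lam ha h.1 h.2) continuous_snd.continuousAt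
    have h2 : ContinuousAt (fun p : ℝ × (ℂ × ℂ) => eI (Vph a p.2.2)) (t₀, y₀, z₀) :=
      ContinuousAt.comp (f := fun p : ℝ × (ℂ × ℂ) => p.2.2)
        (g := fun z : ℂ => eI (Vph a z)) (continuousAt_eI_Vph a h.2)
        (continuous_snd.comp continuous_snd).continuousAt
    exact (Complex.continuous_ofReal.continuousAt.comp
      (continuous_bw (T := T) (a := a) ha lam).continuousAt).mul (h1.sub h2)

/-! ### The end `t = 1` -/

/-- The end of the path is the gate form. -/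
theorem lkw_one {T a : ℕ} (ha : a + 1 ≤ T) (lam : ℝ) (y z : ℂ) :
    lkw T a lam 1 y z = Gam a (lam * (cy T a y * ‖y‖)) z := by
  have hb : bw T a lam 1 y z = min (lam * (cy T a y * ‖y‖)) ‖z‖ := by
    unfold bw
    rw [sub_self, zero_add, one_mul]
  unfold lkw Gam
  rw [hb]
  by_cases hc : cy T a y = 0
  · rw [hc, zero_mul, mul_zero, min_eq_left (norm_nonneg _)]
    simp
  · rw [Lam_of_le (le_Sph ha (le_pos_of_cy ha hc)) (Vph_le a z)]

variable {E : Type*} [NormedAddCommGroup E] [NormedSpace ℝ E]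

theorem levw_one {T a : ℕ} (ha : a + 1 ≤ T) (B : E × ℂ → ℂ) (lam : ℝ) (p : (E × ℂ) × ℂ) :
    levw T a B lam 1 p = B p.1 + Gam a (lam * (cy T a p.1.2 * ‖p.1.2‖)) p.2 := by
  unfold levw
  rw [lkw_one ha]

theorem Gam_zero {a : ℕ} {q : ℝ} (hq : 0 ≤ q) : Gam a q 0 = 0 := by
  unfold Gam
  rw [norm_zero, min_eq_right hq]
  simp

/-- On the first `a` turns of `z` and all the rests next to them the gate does nothing. -/
theorem Gam_cone {a : ℕ} (q : ℝ) {z : ℂ}
    (hz : pos (a + 1) z ≤ 2 * a + 1 ∨ 2 * ((a + 1 : ℕ) : ℝ) ≤ pos (a + 1) z) :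
    Gam a q z = ((‖z‖ : ℝ) : ℂ) * eI (Sph (a + 1) z) := by
  have hpi := Real.pi_pos
  have hS : eI (Sph (a + 1) z) = eI (Vph a z) := by
    have := eI_add_int (Sph (a + 1) z) 1
    rw [← this]
    congr 1
    unfold Sph Vph
    push_cast
    ring
  have key : eI (min (Vph a z) ((2 * a + 1) * Real.pi)) = eI (Vph a z) := by
    rcases hz with hz | hz
    · rw [min_eq_left]
      rcases rest_or_turn (T := a + 1) (pos_mem (a + 1) z).1 (pos_mem (a + 1) z).2 with
        ⟨k, hk, h1, h2⟩ | ⟨k, hk, h1, h2⟩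
      · unfold Vph
        rw [prof_eq_rest hk h1 h2]
        have : (k : ℝ) ≤ a := by
          have h3 : 2 * (k : ℝ) ≤ 2 * a + 1 := h1.trans hz
          have h4 : 2 * k ≤ 2 * a + 1 := by exact_mod_cast h3
          have h5 : k ≤ a := by omega
          exact_mod_cast h5
        nlinarith
      · unfold Vph
        rw [prof_eq_turn hk h1.le h2.le]
        have h3 : xc (a + 1) (Complex.arg z) < 2 * k + 2 := h2
        have h4 : (k : ℝ) + 1 ≤ a := by
          have h5 : 2 * (k : ℝ) + 1 < 2 * a + 1 := h1.trans_le hz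
          have h6 : 2 * k + 1 < 2 * a + 1 := by exact_mod_cast h5
          have h7 : k + 1 ≤ a := by omega
          exact_mod_cast h7
        nlinarith
    · have hV : Vph a z = (2 * a + 3) * Real.pi := by
        unfold Vph
        rw [prof_eq_rest (T := a + 1) (k := a + 1) le_rfl hz (pos_mem (a + 1) z).2]
        push_cast
        ring
      rw [hV, min_eq_right (by nlinarith)]
      have := eI_add_int ((2 * a + 1) * Real.pi) 1
      rw [← this]
      congr 1
      push_cast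
      ring
  unfold Gam
  rw [key, hS]
  push_cast
  ring

/-- The cone property of the end. -/
theorem levw_cone {T a : ℕ} (ha : a + 1 ≤ T) (B : E × ℂ → ℂ) {lam : ℝ} (hl : 0 ≤ lam)
    (X : E × ℂ) {z : ℂ}
    (hz : pos (a + 1) z ≤ 2 * a + 1 ∨ 2 * ((a + 1 : ℕ) : ℝ) ≤ pos (a + 1) z) :
    levw T a B lam 1 (X, z) = levw T a B lam 1 (X, 0) + ((‖z‖ : ℝ) : ℂ) * eI (Sph (a + 1) z) := by
  rw [levw_one ha, levw_one ha, Gam_cone _ hz]
  show B X + _ = B X + Gam a (lam * (cy T a X.2 * ‖X.2‖)) 0 + _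
  rw [Gam_zero (mul_nonneg hl (mul_nonneg (cy_nonneg ha _) (norm_nonneg _))), add_zero]

end Vale.Agent.P268.T.RV.K748
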